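import Vale.Agent.P079.Asym.Tree

/-!
P079: the functionals reached by the iterated limit of the distances, and the bound which the
Szlenk derivation puts on their total gain.
-/

namespace Vale.Agent.P079.Asym

open Filter Topology Set

noncomputable section

universe u

variable {X : Type u} [NormedAddCommGroup X] [NormedSpace ℝ X]

lemma le_norm_toStrongDual (φ : WeakDual ℝ X) (v : X) :
    φ v ≤ ‖WeakDual.toStrongDual φ‖ * ‖v‖ :=
  (le_abs_self _).trans ((WeakDual.toStrongDual φ).le_opNorm v)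

lemma abs_apply_le {φ : WeakDual ℝ X} (hφ : φ ∈ dualBall X) (v : X) : |φ v| ≤ ‖v‖ :=
  ((WeakDual.toStrongDual φ).le_of_opNorm_le hφ v).trans_eq (one_mul _)

lemma exists_tendsto_dualBall {φs : ℕ → WeakDual ℝ X} (h : ∀ k, φs k ∈ dualBall X) :
    ∃ φ ∈ dualBall X, Tendsto φs (uf : Filter ℕ) (𝓝 φ) := by
  have hc : IsCompact (dualBall X) := by
    convert WeakDual.isCompact_closedBall (𝕜 := ℝ) (0 : StrongDual ℝ X) 1 using 1
    ext φ
    simp [dualBall, Metric.mem_closedBall, dist_zero_right]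
  obtain ⟨φ, hφ, hle⟩ := hc.ultrafilter_le_nhds (uf.map φs)
    (le_principal_iff.mpr (Filter.mem_map.mpr (Filter.univ_mem' h)))
  exact ⟨φ, hφ, hle⟩

namespace Setting

variable [CompleteSpace X] (S : Setting X)

/-- The pairs of a functional and a gain which the iterated limit reaches. -/
def Reach : ℕ → (X → X) → WeakDual ℝ X → ℝ → Prop
  | 0, _, φ, c => φ ∈ dualBall X ∧ c ≤ 0
  | r + 1, Φ, φ, c => φ ∈ dualBall X ∧ ∃ (φs : ℕ → WeakDual ℝ X) (cs : ℕ → ℝ),
      (∀ k, Reach r (Φ ∘ S.stp r k) (φs k) (cs k)) ∧ Tendsto φs (uf : Filter ℕ) (𝓝 φ) ∧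
      Tendsto (fun k => cs k + φs k (S.mean r (Φ ∘ S.stp r k) - S.mean (r + 1) Φ))
        (uf : Filter ℕ) (𝓝 c)

lemma reach_mem : ∀ {r : ℕ} {Φ : X → X} {φ : WeakDual ℝ X} {c : ℝ},
    S.Reach r Φ φ c → φ ∈ dualBall X
  | 0, _, _, _, h => h.1
  | _ + 1, _, _, _, h => h.1

lemma exists_reach : ∀ (r : ℕ) {Φ : X → X} {x : X}, MapsTo Φ S.K S.K → x ∈ S.K →
    ∃ φ c, |c| ≤ r * S.D ∧ S.Reach r Φ φ c ∧ S.val r Φ x ≤ c + φ (S.mean r Φ - x)
  | 0, Φ, x, _, _ => by
    obtain ⟨φ, hφ1, hφ⟩ := exists_dual_vector'' ℝ (Φ S.x0 - x)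
    refine ⟨StrongDual.toWeakDual φ, 0, by simp, ⟨?_, le_rfl⟩, ?_⟩
    · simpa [dualBall] using hφ1
    · simp only [val, mean, zero_add]
      exact (show φ (Φ S.x0 - x) = ‖Φ S.x0 - x‖ by simpa using hφ).ge
  | r + 1, Φ, x, hΦ, hx => by
    choose φs cs hcs hreach hval using fun k => exists_reach r (S.maps_comp hΦ r k) hx
    obtain ⟨φ, hφ, hlim⟩ := exists_tendsto_dualBall fun k => S.reach_mem (hreach k)
    set y := S.mean (r + 1) Φ
    set d := fun k => cs k + φs k (S.mean r (Φ ∘ S.stp r k) - y)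
    have hd : ∀ k, |d k| ≤ ((r + 1 : ℕ) : ℝ) * S.D := fun k => by
      rw [Nat.cast_add, Nat.cast_one, add_mul, one_mul]
      exact (abs_add_le _ _).trans (add_le_add (hcs k) ((abs_apply_le (S.reach_mem (hreach k)) _).trans
        (S.diam _ (S.mean_mem r (S.maps_comp hΦ r k)) _ (S.mean_mem _ hΦ))))
    have hdlim := tendsto_ulim hd
    refine ⟨φ, ulim d, ?_, ⟨hφ, φs, cs, hreach, hlim, hdlim⟩, ?_⟩
    · exact le_of_tendsto' hdlim.abs hd
    · refine le_of_tendsto_of_tendsto' (S.tendsto_val r hΦ hx)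
        (hdlim.add (((WeakDual.eval_continuous (y - x)).tendsto φ).comp hlim)) fun k => ?_
      refine (hval k).trans_eq ?_
      simp only [d, Function.comp_apply, add_assoc, ← map_add, sub_add_sub_cancel]

lemma bound {δ : ℝ} (hδ : 0 ≤ δ) : ∀ (r : ℕ) {Φ : X → X} {μ : ℝ} {φ : WeakDual ℝ X} {c : ℝ} {j : ℕ},
    0 ≤ μ → MapsTo Φ S.K S.K → (∀ v ∈ S.K, ∀ w ∈ S.K, ‖Φ v - Φ w‖ ≤ μ * r * ‖v - w‖) →
    S.Reach r Φ φ c → φ ∉ (szDer δ)^[j] (dualBall X) → c ≤ μ * S.D * (2 * δ * r + 2 * j)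
  | 0, _, _, _, _, _, hμ, _, _, h, _ => h.2.trans (by have := S.D_nonneg; positivity)
  | r + 1, Φ, μ, φ, c, j, hμ, hΦ, hlip, ⟨hφ, φs, cs, hreach, hlim, hc⟩, hj => by
    have hD := S.D_nonneg
    set y := S.mean (r + 1) Φ
    have hjump : ∀ k, ‖S.mean r (Φ ∘ S.stp r k) - y‖ ≤ 2 * (μ * S.D) := fun k => by
      refine (S.mean_jump r (by positivity) hΦ hlip k).trans_eq ?_
      push_cast
      field_simp
    have hin : ∀ k, ∀ v ∈ S.K, ∀ w ∈ S.K,
        ‖(Φ ∘ S.stp r k) v - (Φ ∘ S.stp r k) w‖ ≤ μ * r * ‖v - w‖ := by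
      intro k v hv w hw
      refine (hlip _ (S.res_mem _ _) _ (S.res_mem _ _)).trans ?_
      have h0 : (0 : ℝ) ≤ 1 - 1 / (r + 1 : ℝ) := sub_nonneg.mpr (by
        rw [div_le_one (by positivity)]; linarith [r.cast_nonneg (α := ℝ)])
      have h1 := S.res_lip k (S.aff_mem r hv) (S.aff_mem r hw)
      rw [add_sub_add_right_eq_sub, ← smul_sub, norm_smul_of_nonneg h0] at h1
      refine (mul_le_mul_of_nonneg_left h1 (by positivity)).trans_eq ?_
      push_cast
      field_simp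
      ring
    -- the least stage which misses the limit functional
    obtain ⟨i, hij, hi, hi'⟩ : ∃ i, i + 1 ≤ j ∧ φ ∈ (szDer δ)^[i] (dualBall X) ∧
        φ ∉ (szDer δ)^[i + 1] (dualBall X) := by
      clear hlip hin hjump hc hreach
      induction j with
      | zero => exact absurd hφ hj
      | succ j ih =>
        by_cases h : φ ∈ (szDer δ)^[j] (dualBall X)
        · exact ⟨j, le_rfl, h, hj⟩
        · obtain ⟨i, h1, h2⟩ := ih h
          exact ⟨i, h1.trans j.le_succ, h2⟩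
    set F := (szDer δ)^[i] (dualBall X)
    rw [Function.iterate_succ_apply'] at hi'
    simp only [szDer, Set.mem_ofPred_eq, not_and, not_forall, not_exists, not_lt] at hi'
    obtain ⟨U, hU, hφU, hsmall⟩ := hi' hi
    suffices hmain : c ≤ μ * S.D * (2 * δ * (r + 1 : ℕ) + 2 * (i + 1 : ℕ)) by
      refine hmain.trans (mul_le_mul_of_nonneg_left ?_ (mul_nonneg hμ hD))
      have : ((i + 1 : ℕ) : ℝ) ≤ j := Nat.cast_le.mpr hij
      linarith
    by_cases hev : ∀ᶠ k in (uf : Filter ℕ), φs k ∈ F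
    · have h0 : Tendsto (fun k => φ (S.mean r (Φ ∘ S.stp r k) - y)) (uf : Filter ℕ) (𝓝 0) := by
        have := (S.tendsto_wl (fun k => S.mean_mem r (S.maps_comp hΦ r k))
          (WeakDual.toStrongDual φ)).sub_const (WeakDual.toStrongDual φ y)
        simp only [y, mean, sub_self, ← map_sub] at this ⊢
        exact this
      have hrhs := h0.const_add (μ * S.D * (2 * δ * (r + 1 : ℕ) + 2 * (i + 1 : ℕ)))
      rw [add_zero] at hrhs
      refine le_of_tendsto_of_tendsto hc hrhs ?_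
      filter_upwards [hev, hlim (hU.mem_nhds hφU)] with k hk hkU
      have hne : φs k ∉ (szDer δ)^[i + 1] (dualBall X) := by
        rw [Function.iterate_succ_apply']
        intro h
        obtain ⟨a, ha, b, hb, hab⟩ := h.2 U hU hkU
        exact absurd hab (not_lt.mpr (hsmall a ha b hb))
      have h1 := bound hδ r hμ (S.maps_comp hΦ r k) (hin k) (hreach k) hne
      have h2 : (φs k - φ) (S.mean r (Φ ∘ S.stp r k) - y) ≤ δ * (2 * (μ * S.D)) :=
        (le_norm_toStrongDual _ _).trans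
          (mul_le_mul (hsmall _ ⟨hkU, hk⟩ _ ⟨hφU, hi⟩) (hjump k) (norm_nonneg _) hδ)
      have h3 : (φs k - φ) (S.mean r (Φ ∘ S.stp r k) - y) =
          φs k (S.mean r (Φ ∘ S.stp r k) - y) - φ (S.mean r (Φ ∘ S.stp r k) - y) := rfl
      push_cast at h1 ⊢
      linarith
    · refine le_of_tendsto hc ?_
      filter_upwards [Ultrafilter.eventually_not.mpr hev] with k hk
      have h1 := bound hδ r hμ (S.maps_comp hΦ r k) (hin k) (hreach k) hk
      have h2 := ((le_abs_self _).trans (abs_apply_le (S.reach_mem (hreach k))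
        (S.mean r (Φ ∘ S.stp r k) - y))).trans (hjump k)
      push_cast at h1 ⊢
      have h3 : (0 : ℝ) ≤ μ * S.D * δ := mul_nonneg (mul_nonneg hμ hD) hδ
      linarith

/-- The mean of the iteration is close to the value at itself. -/
lemma val_mean_le {δ : ℝ} (hδ : 0 ≤ δ) {m : ℕ} (hm : (szDer δ)^[m] (dualBall X) = ∅) {N : ℕ}
    (hN : 0 < N) : S.val N id (S.mean N id) ≤ S.D * (2 * δ + 2 * m / N) := by
  have hid : MapsTo id S.K S.K := fun _ h => h
  obtain ⟨φ, c, -, hreach, hval⟩ := S.exists_reach N hid (S.mean_mem N hid)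
  have hN' : (N : ℝ) ≠ 0 := Nat.cast_ne_zero.mpr hN.ne'
  have h := S.bound hδ N (μ := 1 / N) (by positivity) hid
    (fun v _ w _ => by rw [one_div_mul_cancel hN', one_mul]; rfl) hreach
    (j := m) (by rw [hm]; exact Set.notMem_empty φ)
  rw [sub_self, map_zero, add_zero] at hval
  refine hval.trans (h.trans_eq ?_)
  field_simp

end Setting

end

end Vale.Agent.P079.Asym
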