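import Mathlib

/-!
P079: the Szlenk derivation of subsets of the dual, for the weak star topology and the norm.
-/

namespace Vale.Agent.P079.Asym

noncomputable section

universe u

variable (X : Type u) [NormedAddCommGroup X] [NormedSpace ℝ X]

/-- The closed unit ball of the dual, in the weak star topology. -/
def dualBall : Set (WeakDual ℝ X) := {φ | ‖WeakDual.toStrongDual φ‖ ≤ 1}

variable {X}

/-- The Szlenk derivation: points all whose weak star neighbourhoods in `F` have norm diameter
larger than `δ`. -/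
def szDer (δ : ℝ) (F : Set (WeakDual ℝ X)) : Set (WeakDual ℝ X) :=
  {φ | φ ∈ F ∧ ∀ U : Set (WeakDual ℝ X), IsOpen U → φ ∈ U →
    ∃ ψ ∈ U ∩ F, ∃ χ ∈ U ∩ F, δ < ‖WeakDual.toStrongDual (ψ - χ)‖}

end

end Vale.Agent.P079.Asym
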