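import Vale.Agent.P079.Asym.Bound

/-!
P079: reflexive spaces whose Szlenk derivation exhausts the dual ball at one radius below `1/2`
have the fixed point property.
-/

namespace Vale.Agent.P079.Asym

open Filter Topology Set

noncomputable section

universe u

variable {X : Type u} [NormedAddCommGroup X] [NormedSpace ℝ X]

lemma exists_weakLimit (hrefl : Function.Surjective (NormedSpace.inclusionInDoubleDual ℝ X))
    (l : Ultrafilter X) {C : Set X} (hC : Bornology.IsBounded C) (hl : C ∈ l) :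
    ∃ y, ∀ φ : StrongDual ℝ X, Tendsto φ (l : Filter X) (𝓝 (φ y)) := by
  obtain ⟨R, hR0, hR⟩ := hC.exists_pos_norm_le
  have h : ∀ φ : StrongDual ℝ X, ∃ a : ℝ, |a| ≤ ‖φ‖ * R ∧ Tendsto φ (l : Filter X) (𝓝 a) := by
    intro φ
    obtain ⟨a, ha, hle⟩ := (isCompact_Icc (a := -(‖φ‖ * R)) (b := ‖φ‖ * R)).ultrafilter_le_nhds
      (l.map φ) (le_principal_iff.mpr (Filter.mem_map.mpr (Filter.mem_of_superset hl fun v hv =>
        abs_le.mp ((φ.le_opNorm v).trans (mul_le_mul_of_nonneg_left (hR v hv) (norm_nonneg _))))))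
    exact ⟨a, abs_le.mpr ha, hle⟩
  choose f hf hlim using h
  let F : StrongDual ℝ X →ₗ[ℝ] ℝ :=
    { toFun := f
      map_add' := fun φ ψ => tendsto_nhds_unique (hlim _) ((hlim φ).add (hlim ψ))
      map_smul' := fun c φ => tendsto_nhds_unique (hlim _) ((hlim φ).const_mul c) }
  obtain ⟨y, hy⟩ := hrefl (F.mkContinuous R fun φ => (hf φ).trans_eq (mul_comm _ _))
  refine ⟨y, fun φ => ?_⟩
  have := DFunLike.congr_fun hy φ
  rw [NormedSpace.dual_def, LinearMap.mkContinuous_apply] at this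
  rw [this]
  exact hlim φ

lemma weakLimit_mem {l : Ultrafilter X} {y : X}
    (hy : ∀ φ : StrongDual ℝ X, Tendsto φ (l : Filter X) (𝓝 (φ y))) {C : Set X}
    (hc : IsClosed C) (hx : Convex ℝ C) (hl : C ∈ l) : y ∈ C := by
  by_contra hyC
  obtain ⟨f, u, hfu, huy⟩ := geometric_hahn_banach_closed_point hx hc hyC
  exact absurd (le_of_tendsto (hy f) (Filter.mem_of_superset hl fun v hv => (hfu v hv).le))
    (not_le.mpr huy)

lemma exists_minimal (hrefl : Function.Surjective (NormedSpace.inclusionInDoubleDual ℝ X))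
    {C : Set X} (hc : IsClosed C) (hb : Bornology.IsBounded C) (hx : Convex ℝ C)
    (hne : C.Nonempty) {T : X → X} (hT : MapsTo T C C) :
    ∃ K, K ⊆ C ∧ IsClosed K ∧ Convex ℝ K ∧ K.Nonempty ∧ MapsTo T K K ∧
      ∀ K', K' ⊆ K → IsClosed K' → Convex ℝ K' → K'.Nonempty → MapsTo T K' K' → K' = K := by
  set 𝒮 : Set (Set X) :=
    {K | K ⊆ C ∧ IsClosed K ∧ Convex ℝ K ∧ K.Nonempty ∧ MapsTo T K K} with hS
  have H : ∀ c ⊆ 𝒮, IsChain (· ⊆ ·) c → c.Nonempty → ∃ lb ∈ 𝒮, ∀ s ∈ c, lb ⊆ s := by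
    intro c hc𝒮 hchain hcne
    refine ⟨⋂₀ c, ⟨?_, ?_, ?_, ?_, ?_⟩, fun s hs => Set.sInter_subset_of_mem hs⟩
    · obtain ⟨s, hs⟩ := hcne
      exact (Set.sInter_subset_of_mem hs).trans (hc𝒮 hs).1
    · exact isClosed_sInter fun s hs => (hc𝒮 hs).2.1
    · exact convex_sInter fun s hs => (hc𝒮 hs).2.2.1
    · obtain ⟨s₀, hs₀⟩ := hcne
      have : Nonempty c := ⟨⟨s₀, hs₀⟩⟩
      have hdir : Directed (· ≥ ·) fun s : c => 𝓟 (s : Set X) := fun a b => by
        rcases hchain.total a.2 b.2 with h | h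
        · exact ⟨a, le_rfl, principal_mono.mpr h⟩
        · exact ⟨b, principal_mono.mpr h, le_rfl⟩
      have hbot : NeBot (⨅ s : c, 𝓟 (s : Set X)) :=
        iInf_neBot_of_directed' hdir fun s => principal_neBot_iff.mpr (hc𝒮 s.2).2.2.2.1
      set l := Ultrafilter.of (⨅ s : c, 𝓟 (s : Set X))
      have hl : ∀ s ∈ c, s ∈ l := fun s hs =>
        Ultrafilter.of_le _ (mem_iInf_of_mem (⟨s, hs⟩ : c) (mem_principal_self _))
      obtain ⟨y, hy⟩ := exists_weakLimit hrefl l (hb.subset (hc𝒮 hs₀).1) (hl _ hs₀)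
      exact ⟨y, fun s hs => weakLimit_mem hy (hc𝒮 hs).2.1 (hc𝒮 hs).2.2.1 (hl s hs)⟩
    · exact fun v hv s hs => (hc𝒮 hs).2.2.2.2 (hv s hs)
  obtain ⟨K, -, hK⟩ := zorn_superset_nonempty 𝒮 H C ⟨Subset.rfl, hc, hx, hne, hT⟩
  obtain ⟨h1, h2, h3, h4, h5⟩ := hK.prop
  exact ⟨K, h1, h2, h3, h4, h5, fun K' hsub hc' hx' hne' hT' =>
    hK.eq_of_le ⟨hsub.trans h1, hc', hx', hne', hT'⟩ hsub⟩

theorem exists_fixedPoint [CompleteSpace X]
    (hrefl : Function.Surjective (NormedSpace.inclusionInDoubleDual ℝ X))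
    {δ : ℝ} (hδ : δ < 1 / 2) {m : ℕ} (hm : (szDer δ)^[m] (dualBall X) = ∅)
    {C : Set X} (hc : IsClosed C) (hb : Bornology.IsBounded C) (hx : Convex ℝ C)
    (hne : C.Nonempty) {T : X → X} (hT : MapsTo T C C)
    (hTN : ∀ v ∈ C, ∀ w ∈ C, ‖T v - T w‖ ≤ ‖v - w‖) : ∃ p ∈ C, T p = p := by
  have hδ0 : 0 ≤ δ := by
    by_contra hlt
    have h : ∀ i, (0 : WeakDual ℝ X) ∈ (szDer δ)^[i] (dualBall X) := by
      intro i
      induction i with
      | zero => simp [dualBall]
      | succ i ih =>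
        rw [Function.iterate_succ_apply']
        exact ⟨ih, fun U _ hU => ⟨0, ⟨hU, ih⟩, 0, ⟨hU, ih⟩,
          by rw [sub_zero, map_zero, norm_zero]; exact not_le.mp hlt⟩⟩
    exact (hm ▸ h m : (0 : WeakDual ℝ X) ∈ (∅ : Set (WeakDual ℝ X)))
  obtain ⟨K, hKC, hKc, hKx, ⟨x0, hx0⟩, hTK, hmin⟩ := exists_minimal hrefl hc hb hx hne hT
  have hKb := hb.subset hKC
  let S : Setting X :=
    { K := K, T := T, x0 := x0, D := Metric.diam K, closed := hKc, conv := hKx, maps := hTK
      nonexp := fun v hv w hw => hTN v (hKC hv) w (hKC hw)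
      x0_mem := hx0
      diam := fun v hv w hw => by rw [← dist_eq_norm]; exact Metric.dist_le_diam_of_mem hKb hv hw
      weakLimits := fun g hg => by
        obtain ⟨y, hy⟩ := exists_weakLimit hrefl (uf.map g) hKb
          (Filter.mem_map.mpr (Filter.univ_mem' hg))
        exact ⟨y, weakLimit_mem hy hKc hKx (Filter.mem_map.mpr (Filter.univ_mem' hg)),
          fun φ => (hy φ).comp Filter.tendsto_map⟩ }
  obtain ⟨n, hn⟩ := exists_nat_gt (2 * (m : ℝ) / (1 - 2 * δ))
  have hid : MapsTo id S.K S.K := fun _ h => h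
  -- the value is constant on the minimal set
  have hLip : ∀ v ∈ K, ∀ w ∈ K, S.val (n + 1) id v ≤ S.val (n + 1) id w + ‖v - w‖ :=
    fun v hv w hw => by
      have := S.val_le_val (n + 1) (c := 1) (e := ‖v - w‖) hid hv hw fun g _ => by
        rw [one_mul, norm_sub_rev v w]
        exact norm_sub_le_norm_sub_add_norm_sub _ _ _
      rwa [one_mul] at this
  have hTval : ∀ v ∈ K, S.val (n + 1) id (T v) ≤ S.val (n + 1) id v := fun v hv => by
    have h0 : Tendsto (fun k : ℕ => S.val n (id ∘ S.stp n k) v + S.D / (k + 1 : ℝ))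
        (uf : Filter ℕ) (𝓝 (S.val (n + 1) id v + 0)) := by
      refine (S.tendsto_val n hid hv).add ?_
      have := ((tendsto_one_div_add_atTop_nhds_zero_nat (𝕜 := ℝ)).mono_left uf_le).const_mul S.D
      rw [mul_zero] at this
      exact this.congr fun k => by ring
    rw [add_zero] at h0
    refine le_of_tendsto_of_tendsto' (S.tendsto_val n hid (hTK hv)) h0 fun k => ?_
    by_cases hn0 : n = 0
    · subst hn0
      simp only [Setting.val, Function.comp_apply, id]
      set g := S.stp 0 k S.x0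
      have h1 := norm_sub_le_norm_sub_add_norm_sub g (T g) (T v)
      have h2 := S.nonexp g (S.res_mem _ _) v hv
      have h3 := S.res_approx k (S.aff_mem 0 S.x0_mem)
      rw [norm_sub_rev] at h3
      change ‖g - T g‖ ≤ _ at h3
      linarith
    · have hleaf : ∀ w, w ∈ K → ‖(id ∘ S.stp n k) w - T v‖ ≤
          1 * ‖(id ∘ S.stp n k) w - v‖ + S.D / (k + 1 : ℝ) := fun w hw => by
        simp only [Function.comp_apply, id]
        set g := S.stp n k w
        have h1 := norm_sub_le_norm_sub_add_norm_sub g (T g) (T v)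
        have h2 := S.nonexp g (S.res_mem _ _) v hv
        have h3 := S.res_approx k (S.aff_mem n hw)
        rw [norm_sub_rev] at h3
        change ‖g - T g‖ ≤ _ at h3
        linarith
      have := S.val_le_val n (S.maps_comp hid n k) (hTK hv) hv hleaf
      rwa [one_mul] at this
  have hconst : ∀ v ∈ K, ∀ w ∈ K, S.val (n + 1) id v ≤ S.val (n + 1) id w := by
    intro v hv w hw
    set a := S.val (n + 1) id w
    have hA : {z | z ∈ K ∧ S.val (n + 1) id z ≤ a} = K := by
      refine hmin _ (fun z hz => hz.1) ?_ ?_ ⟨w, hw, le_rfl⟩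
        fun z hz => ⟨hTK hz.1, (hTval z hz.1).trans hz.2⟩
      · have hcont : ContinuousOn (fun z => S.val (n + 1) id z) K := by
          refine (LipschitzOnWith.of_le_add_mul 1 fun z hz z' hz' => ?_).continuousOn
          rw [NNReal.coe_one, one_mul, dist_eq_norm]
          exact hLip z hz z' hz'
        exact hKc.isClosed_le hcont continuousOn_const
      · intro z hz z' hz' c e hc' he hce
        refine ⟨hKx hz.1 hz'.1 hc' he hce, (S.val_convex _ hid hz.1 hz'.1 hc' he hce).trans ?_⟩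
        refine (add_le_add (mul_le_mul_of_nonneg_left hz.2 hc')
          (mul_le_mul_of_nonneg_left hz'.2 he)).trans_eq ?_
        rw [← add_mul, hce, one_mul]
    exact ((Set.ext_iff.mp hA v).mpr hv).2
  -- a point with small radius makes the diameter small
  set y := S.mean (n + 1) id
  have hy : y ∈ K := S.mean_mem _ hid
  set r := S.val (n + 1) id y
  have hyr : ∀ v ∈ K, ‖y - v‖ ≤ r := fun v hv =>
    (S.norm_mean_sub_le_val _ hid hv).trans (hconst v hv y hy)
  have hhull : closedConvexHull ℝ (T '' K) = K := by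
    refine hmin _ (closedConvexHull_min (mapsTo_iff_image_subset.mp hTK) hKx hKc)
      isClosed_closedConvexHull convex_closedConvexHull
      ⟨T y, subset_closedConvexHull ⟨y, hy, rfl⟩⟩ fun z hz => subset_closedConvexHull
        ⟨z, closedConvexHull_min (mapsTo_iff_image_subset.mp hTK) hKx hKc hz, rfl⟩
  have hW : K ∩ ⋂ v ∈ K, Metric.closedBall v r = K := by
    refine hmin _ Set.inter_subset_left (hKc.inter (isClosed_biInter fun v _ => Metric.isClosed_closedBall))
      (hKx.inter (convex_iInter₂ fun v _ => convex_closedBall v r))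
      ⟨y, hy, Set.mem_iInter₂.mpr fun v hv => by
        rw [Metric.mem_closedBall, dist_eq_norm]; exact hyr v hv⟩ ?_
    intro z hz
    refine ⟨hTK hz.1, Set.mem_iInter₂.mpr fun v hv => ?_⟩
    have hsub : K ⊆ Metric.closedBall (T z) r := by
      conv_lhs => rw [← hhull]
      refine closedConvexHull_min ?_ (convex_closedBall _ _) Metric.isClosed_closedBall
      rintro _ ⟨w, hw, rfl⟩
      rw [Metric.mem_closedBall, dist_eq_norm, norm_sub_rev]
      refine (S.nonexp z hz.1 w hw).trans ?_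
      simpa [dist_eq_norm] using Set.mem_iInter₂.mp hz.2 w hw
    rw [Metric.mem_closedBall, dist_comm]
    exact hsub hv
  have hDr : S.D ≤ r := Metric.diam_le_of_forall_dist_le
    ((norm_nonneg _).trans (hyr y hy)) fun v hv w hw => by
      exact Set.mem_iInter₂.mp ((Set.ext_iff.mp hW v).mpr hv).2 w hw
  have hr := S.val_mean_le hδ0 hm n.succ_pos
  have hq : 2 * δ + 2 * m / ((n + 1 : ℕ) : ℝ) < 1 := by
    rw [div_lt_iff₀ (by linarith)] at hn
    have hlt : 2 * (m : ℝ) / ((n + 1 : ℕ) : ℝ) < 1 - 2 * δ := by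
      rw [div_lt_iff₀ (by positivity)]
      push_cast
      linarith
    linarith
  have hD : S.D = 0 := by
    by_contra hne'
    have hpos := lt_of_le_of_ne S.D_nonneg (Ne.symm hne')
    have := (hDr.trans hr).trans_lt (mul_lt_of_lt_one_right hpos hq)
    exact lt_irrefl _ this
  refine ⟨y, hKC hy, eq_of_sub_eq_zero (norm_le_zero_iff.mp ?_)⟩
  exact (S.diam _ (hTK hy) _ hy).trans hD.le

end

end Vale.Agent.P079.Asym
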