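import Vale.Agent.P079.Asym.Defs
import Vale.Agent.P079.Convex

/-!
P079: the iteration inside the space. `mean r Φ` is the iterated weak limit of `Φ` applied to the
`r`-step iteration, the outermost index belonging to the last step; `val r Φ x` is the iterated
limit of the distances to `x`.
-/

namespace Vale.Agent.P079.Asym

open Filter Topology Set

noncomputable section

universe u

/-- A nonexpansive map on a bounded closed convex set with weak limits along ultrafilters. -/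
structure Setting (X : Type u) [NormedAddCommGroup X] [NormedSpace ℝ X] where
  K : Set X
  T : X → X
  x0 : X
  D : ℝ
  closed : IsClosed K
  conv : Convex ℝ K
  maps : MapsTo T K K
  nonexp : ∀ v ∈ K, ∀ w ∈ K, ‖T v - T w‖ ≤ ‖v - w‖
  x0_mem : x0 ∈ K
  diam : ∀ v ∈ K, ∀ w ∈ K, ‖v - w‖ ≤ D
  weakLimits : ∀ g : ℕ → X, (∀ n, g n ∈ K) → ∃ y ∈ K, ∀ φ : StrongDual ℝ X,
    Tendsto (fun n => φ (g n)) (uf : Filter ℕ) (𝓝 (φ y))

namespace Setting

variable {X : Type u} [NormedAddCommGroup X] [NormedSpace ℝ X] [CompleteSpace X] (S : Setting X)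

lemma D_nonneg : 0 ≤ S.D := by simpa using S.diam _ S.x0_mem _ S.x0_mem

open Classical in
/-- The weak limit of a sequence in the set. -/
def wl (g : ℕ → X) : X := if h : ∀ n, g n ∈ S.K then (S.weakLimits g h).choose else S.x0

lemma wl_mem (g : ℕ → X) : S.wl g ∈ S.K := by
  by_cases h : ∀ n, g n ∈ S.K
  · rw [wl, dif_pos h]; exact (S.weakLimits g h).choose_spec.1
  · rw [wl, dif_neg h]; exact S.x0_mem

lemma tendsto_wl {g : ℕ → X} (h : ∀ n, g n ∈ S.K) (φ : StrongDual ℝ X) :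
    Tendsto (fun n => φ (g n)) (uf : Filter ℕ) (𝓝 (φ (S.wl g))) := by
  rw [wl, dif_pos h]; exact (S.weakLimits g h).choose_spec.2 φ

lemma norm_wl_sub_le {g : ℕ → X} (h : ∀ n, g n ∈ S.K) (z : X) {c : ℕ → ℝ} {C : ℝ}
    (hc : Tendsto c (uf : Filter ℕ) (𝓝 C)) (hb : ∀ n, ‖g n - z‖ ≤ c n) : ‖S.wl g - z‖ ≤ C := by
  obtain ⟨φ, hφ1, hφ⟩ := exists_dual_vector'' ℝ (S.wl g - z)
  have hφ' : φ (S.wl g) - φ z = ‖S.wl g - z‖ := by rw [← map_sub]; simpa using hφ
  rw [← hφ']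
  refine le_of_tendsto_of_tendsto' ((S.tendsto_wl h φ).sub_const (φ z)) hc fun n => ?_
  rw [← map_sub]
  exact ((le_abs_self _).trans (φ.le_of_opNorm_le hφ1 _)).trans (by rw [one_mul]; exact hb n)

lemma exists_res (k : ℕ) {q : X} (hq : q ∈ S.K) :
    ∃ v ∈ S.K, v = (1 / (k + 1 : ℝ)) • q + (1 - 1 / (k + 1 : ℝ)) • S.T v := by
  set h : ℝ := 1 / (k + 1 : ℝ) with hh
  have h0 : 0 < h := by positivity
  have h1 : h ≤ 1 := by rw [hh, div_le_one (by positivity)]; linarith [k.cast_nonneg (α := ℝ)]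
  set F : X → X := fun v => h • q + (1 - h) • S.T v
  have hF : MapsTo F S.K S.K := fun v hv =>
    S.conv hq (S.maps hv) h0.le (sub_nonneg.mpr h1) (by ring)
  have hFN : ∀ v ∈ S.K, ∀ w ∈ S.K, ‖F v - F w‖ ≤ (1 - h) * ‖v - w‖ := fun v hv w hw => by
    simp only [F, add_sub_add_left_eq_sub, ← smul_sub,
      norm_smul_of_nonneg (sub_nonneg.mpr h1)]
    exact mul_le_mul_of_nonneg_left (S.nonexp v hv w hw) (sub_nonneg.mpr h1)
  set v : ℕ → X := fun i => F^[i] q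
  have hv : ∀ i, v i ∈ S.K := fun i => hF.iterate i hq
  have hsucc : ∀ i, v (i + 1) = F (v i) := fun i => Function.iterate_succ_apply' F i q
  have hstep : ∀ i, ‖v i - v (i + 1)‖ ≤ S.D * (1 - h) ^ i := by
    intro i
    induction i with
    | zero => simpa using S.diam _ (hv 0) _ (hv 1)
    | succ i ih =>
      calc ‖v (i + 1) - v (i + 1 + 1)‖ = ‖F (v i) - F (v (i + 1))‖ := by
            rw [hsucc (i + 1), hsucc i]
        _ ≤ (1 - h) * ‖v i - v (i + 1)‖ := hFN _ (hv i) _ (hv _)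
        _ ≤ (1 - h) * (S.D * (1 - h) ^ i) := mul_le_mul_of_nonneg_left ih (sub_nonneg.mpr h1)
        _ = S.D * (1 - h) ^ (i + 1) := by ring
  have hcau : CauchySeq v := cauchySeq_of_le_geometric (1 - h) S.D (by linarith) fun i => by
    rw [dist_eq_norm]; exact hstep i
  obtain ⟨p, hp⟩ := cauchySeq_tendsto_of_complete hcau
  have hpK : p ∈ S.K := S.closed.mem_of_tendsto hp (Eventually.of_forall hv)
  refine ⟨p, hpK, tendsto_nhds_unique (hp.comp (tendsto_add_atTop_nat 1)) ?_⟩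
  change Tendsto (fun i => v (i + 1)) atTop (𝓝 (F p))
  refine tendsto_iff_norm_sub_tendsto_zero.mpr (squeeze_zero (fun i => norm_nonneg _) (fun i => ?_)
    (tendsto_iff_norm_sub_tendsto_zero.mp hp))
  rw [hsucc]
  exact (hFN _ (hv i) _ hpK).trans (mul_le_of_le_one_left (norm_nonneg _) (by linarith))

open Classical in
/-- The resolvent. -/
def res (k : ℕ) (q : X) : X := if hq : q ∈ S.K then (S.exists_res k hq).choose else S.x0

lemma res_mem (k : ℕ) (q : X) : S.res k q ∈ S.K := by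
  by_cases hq : q ∈ S.K
  · rw [res, dif_pos hq]; exact (S.exists_res k hq).choose_spec.1
  · rw [res, dif_neg hq]; exact S.x0_mem

lemma res_eq (k : ℕ) {q : X} (hq : q ∈ S.K) :
    S.res k q = (1 / (k + 1 : ℝ)) • q + (1 - 1 / (k + 1 : ℝ)) • S.T (S.res k q) := by
  rw [res, dif_pos hq]; exact (S.exists_res k hq).choose_spec.2

lemma res_lip (k : ℕ) {q q' : X} (hq : q ∈ S.K) (hq' : q' ∈ S.K) :
    ‖S.res k q - S.res k q'‖ ≤ ‖q - q'‖ := by
  set h : ℝ := 1 / (k + 1 : ℝ) with hh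
  have h0 : 0 < h := by positivity
  have h1 : h ≤ 1 := by rw [hh, div_le_one (by positivity)]; linarith [k.cast_nonneg (α := ℝ)]
  set v := S.res k q
  set w := S.res k q'
  have hsub : v - w = h • (q - q') + (1 - h) • (S.T v - S.T w) := by
    rw [smul_sub, smul_sub]
    conv_lhs => rw [show v = h • q + (1 - h) • S.T v from S.res_eq k hq,
      show w = h • q' + (1 - h) • S.T w from S.res_eq k hq']
    abel
  have h2 := norm_add_le (h • (q - q')) ((1 - h) • (S.T v - S.T w))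
  rw [← hsub, norm_smul_of_nonneg h0.le, norm_smul_of_nonneg (sub_nonneg.mpr h1)] at h2
  have h3 := mul_le_mul_of_nonneg_left (S.nonexp v (S.res_mem _ _) w (S.res_mem _ _))
    (sub_nonneg.mpr h1)
  exact le_of_mul_le_mul_left (show h * ‖v - w‖ ≤ h * ‖q - q'‖ by linarith) h0

lemma res_near (k : ℕ) {q : X} (hq : q ∈ S.K) :
    ‖S.res k q - q‖ ≤ (k + 1 : ℝ) * ‖S.T q - q‖ := by
  set h : ℝ := 1 / (k + 1 : ℝ) with hh
  have h0 : 0 < h := by positivity
  have h1 : h ≤ 1 := by rw [hh, div_le_one (by positivity)]; linarith [k.cast_nonneg (α := ℝ)]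
  set v := S.res k q
  have hsub : v - q = (1 - h) • ((S.T v - S.T q) + (S.T q - q)) := by
    conv_lhs => rw [show v = h • q + (1 - h) • S.T v from S.res_eq k hq]
    rw [sub_smul, one_smul, sub_add_sub_cancel, smul_sub, sub_smul, sub_smul, one_smul, one_smul]
    abel
  have h2 : ‖v - q‖ ≤ (1 - h) * (‖v - q‖ + ‖S.T q - q‖) := by
    conv_lhs => rw [hsub]
    rw [norm_smul_of_nonneg (sub_nonneg.mpr h1)]
    exact mul_le_mul_of_nonneg_left ((norm_add_le _ _).trans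
      (add_le_add (S.nonexp v (S.res_mem _ _) q hq) le_rfl)) (sub_nonneg.mpr h1)
  rw [show (k + 1 : ℝ) = 1 / h by rw [hh, one_div_one_div], one_div_mul_eq_div, le_div_iff₀ h0]
  nlinarith [norm_nonneg (S.T q - q)]

lemma res_approx (k : ℕ) {q : X} (hq : q ∈ S.K) :
    ‖S.T (S.res k q) - S.res k q‖ ≤ S.D / (k + 1 : ℝ) := by
  set v := S.res k q
  set h : ℝ := 1 / (k + 1 : ℝ) with hh
  have e : S.T v - v = h • (S.T v - q) := by
    conv_lhs => arg 2; rw [show v = h • q + (1 - h) • S.T v from S.res_eq k hq]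
    rw [sub_smul, one_smul, smul_sub]
    abel
  rw [e, norm_smul_of_nonneg (by positivity : (0 : ℝ) ≤ h), hh, one_div_mul_eq_div]
  exact div_le_div_of_nonneg_right (S.diam _ (S.maps (S.res_mem k q)) _ hq) (by positivity)

/-- One step of the iteration: the last of `r + 1` steps. -/
def stp (r k : ℕ) (v : X) : X :=
  S.res k ((1 - 1 / (r + 1 : ℝ)) • v + (1 / (r + 1 : ℝ)) • S.x0)

lemma aff_mem (r : ℕ) {v : X} (hv : v ∈ S.K) :
    (1 - 1 / (r + 1 : ℝ)) • v + (1 / (r + 1 : ℝ)) • S.x0 ∈ S.K :=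
  S.conv hv S.x0_mem (sub_nonneg.mpr (by
    rw [div_le_one (by positivity)]; linarith [r.cast_nonneg (α := ℝ)])) (by positivity) (by ring)

/-- The mean of `Φ` over the `r`-step iteration. -/
def mean : ℕ → (X → X) → X
  | 0, Φ => Φ S.x0
  | r + 1, Φ => S.wl fun k => mean r (Φ ∘ S.stp r k)

lemma maps_comp {Φ : X → X} (hΦ : MapsTo Φ S.K S.K) (r k : ℕ) :
    MapsTo (Φ ∘ S.stp r k) S.K S.K := fun _ _ => hΦ (S.res_mem _ _)

lemma mean_mem : ∀ (r : ℕ) {Φ : X → X}, MapsTo Φ S.K S.K → S.mean r Φ ∈ S.K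
  | 0, _, hΦ => hΦ S.x0_mem
  | _ + 1, _, _ => S.wl_mem _

lemma mean_sub_le : ∀ (r : ℕ) {Φ Ψ : X → X} {c : ℝ}, MapsTo Φ S.K S.K → MapsTo Ψ S.K S.K →
    (∀ v ∈ S.K, ‖Φ v - Ψ v‖ ≤ c) → ‖S.mean r Φ - S.mean r Ψ‖ ≤ c
  | 0, _, _, _, _, _, h => h _ S.x0_mem
  | r + 1, Φ, Ψ, c, hΦ, hΨ, h => by
    simp only [mean]
    obtain ⟨φ, hφ1, hφ⟩ := exists_dual_vector'' ℝ
      (S.wl (fun k => S.mean r (Φ ∘ S.stp r k)) - S.wl fun k => S.mean r (Ψ ∘ S.stp r k))
    simp only [map_sub, RCLike.ofReal_real_eq_id, id] at hφ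
    rw [← hφ]
    refine le_of_tendsto' ((S.tendsto_wl (fun k => S.mean_mem r (S.maps_comp hΦ r k)) φ).sub
      (S.tendsto_wl (fun k => S.mean_mem r (S.maps_comp hΨ r k)) φ)) fun k => ?_
    rw [← map_sub]
    refine ((le_abs_self _).trans (φ.le_of_opNorm_le hφ1 _)).trans ?_
    rw [one_mul]
    exact mean_sub_le r (S.maps_comp hΦ r k) (S.maps_comp hΨ r k) fun v _ => h _ (S.res_mem _ _)

/-- The means over the last index stay within `2 L D / (r + 1)` of their weak limit. -/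
lemma mean_jump (r : ℕ) {Φ : X → X} {L : ℝ} (hL : 0 ≤ L) (hΦ : MapsTo Φ S.K S.K)
    (hlip : ∀ v ∈ S.K, ∀ w ∈ S.K, ‖Φ v - Φ w‖ ≤ L * ‖v - w‖) (k : ℕ) :
    ‖S.mean r (Φ ∘ S.stp r k) - S.mean (r + 1) Φ‖ ≤ 2 * (L * S.D / (r + 1 : ℝ)) := by
  set b := L * S.D / (r + 1 : ℝ) with hb
  have key : ∀ i, ‖S.mean r (Φ ∘ S.stp r i) - S.mean r Φ‖ ≤ b := by
    intro i
    cases r with
    | zero =>
      simp only [mean, Function.comp_apply, hb, Nat.cast_zero, zero_add, div_one]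
      exact (hlip _ (S.res_mem _ _) _ S.x0_mem).trans
        (mul_le_mul_of_nonneg_left (S.diam _ (S.res_mem _ _) _ S.x0_mem) hL)
    | succ r =>
      simp only [mean]
      have hstep : ∀ m v, v ∈ S.K → ‖(Φ ∘ S.stp (r + 1) i ∘ S.stp r m) v - (Φ ∘ S.stp r m) v‖ ≤
          b + L * ((i + 1 : ℝ) * (S.D / (m + 1 : ℝ))) := by
        intro m v hv
        set w := S.stp r m v
        have hw : w ∈ S.K := S.res_mem _ _
        have h1 : ‖S.stp (r + 1) i w - S.res i w‖ ≤ 1 / ((r + 1 : ℕ) + 1 : ℝ) * S.D := by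
          refine (S.res_lip i (S.aff_mem _ hw) hw).trans ?_
          rw [show (1 - 1 / ((r + 1 : ℕ) + 1 : ℝ)) • w + (1 / ((r + 1 : ℕ) + 1 : ℝ)) • S.x0 - w =
            (1 / ((r + 1 : ℕ) + 1 : ℝ)) • (S.x0 - w) by
              simp only [sub_smul, one_smul, smul_sub]; abel,
            norm_smul_of_nonneg (by positivity)]
          exact mul_le_mul_of_nonneg_left (S.diam _ S.x0_mem _ hw) (by positivity)
        have h2 : ‖S.res i w - w‖ ≤ (i + 1 : ℝ) * (S.D / (m + 1 : ℝ)) :=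
          (S.res_near i hw).trans (mul_le_mul_of_nonneg_left (S.res_approx m (S.aff_mem r hv))
            (by positivity))
        refine (hlip _ (S.res_mem _ _) _ hw).trans ?_
        have h3 := norm_sub_le_norm_sub_add_norm_sub (S.stp (r + 1) i w) (S.res i w) w
        have h4 := mul_le_mul_of_nonneg_left (h3.trans (add_le_add h1 h2)) hL
        have h5 : L * (1 / ((r + 1 : ℕ) + 1 : ℝ) * S.D) = b := by rw [hb]; field_simp
        rw [mul_add, h5] at h4
        exact h4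
      set A := fun m => S.mean r ((Φ ∘ S.stp (r + 1) i) ∘ S.stp r m)
      set B := fun m => S.mean r (Φ ∘ S.stp r m)
      have hA : ∀ m, A m ∈ S.K := fun m => S.mean_mem r (S.maps_comp (S.maps_comp hΦ _ _) _ _)
      have hB : ∀ m, B m ∈ S.K := fun m => S.mean_mem r (S.maps_comp hΦ _ _)
      have hAB : ∀ m, ‖A m - B m‖ ≤ b + L * ((i + 1 : ℝ) * (S.D / (m + 1 : ℝ))) := fun m =>
        S.mean_sub_le r (S.maps_comp (S.maps_comp hΦ _ _) _ _) (S.maps_comp hΦ _ _) (hstep m)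
      have hlim : Tendsto (fun m : ℕ => b + L * ((i + 1 : ℝ) * (S.D / (m + 1 : ℝ)))) (uf : Filter ℕ)
          (𝓝 b) := by
        have h0 := ((tendsto_one_div_add_atTop_nhds_zero_nat (𝕜 := ℝ)).mono_left uf_le).const_mul
          (L * ((i + 1 : ℝ) * S.D))
        rw [mul_zero] at h0
        have h1 := h0.const_add b
        rw [add_zero] at h1
        exact h1.congr fun m => by ring
      obtain ⟨φ, hφ1, hφ⟩ := exists_dual_vector'' ℝ (S.wl A - S.wl B)
      simp only [map_sub, RCLike.ofReal_real_eq_id, id] at hφ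
      rw [← hφ]
      refine le_of_tendsto_of_tendsto' ((S.tendsto_wl hA φ).sub (S.tendsto_wl hB φ)) hlim fun m => ?_
      rw [← map_sub]
      refine ((le_abs_self _).trans (φ.le_of_opNorm_le hφ1 _)).trans ?_
      rw [one_mul]
      exact hAB m
  have h1 : ‖S.mean (r + 1) Φ - S.mean r Φ‖ ≤ b :=
    S.norm_wl_sub_le (fun i => S.mean_mem r (S.maps_comp hΦ r i)) _ tendsto_const_nhds key
  have h2 := norm_sub_le_norm_sub_add_norm_sub (S.mean r (Φ ∘ S.stp r k)) (S.mean r Φ)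
    (S.mean (r + 1) Φ)
  rw [norm_sub_rev (S.mean r Φ)] at h2
  linarith [key k]

/-- The iterated limit of the distances to `x`. -/
def val : ℕ → (X → X) → X → ℝ
  | 0, Φ, x => ‖Φ S.x0 - x‖
  | r + 1, Φ, x => ulim fun k => val r (Φ ∘ S.stp r k) x

lemma val_bounds : ∀ (r : ℕ) {Φ : X → X} {x : X}, MapsTo Φ S.K S.K → x ∈ S.K →
    0 ≤ S.val r Φ x ∧ S.val r Φ x ≤ S.D
  | 0, _, _, hΦ, hx => ⟨norm_nonneg _, S.diam _ (hΦ S.x0_mem) _ hx⟩
  | r + 1, Φ, x, hΦ, hx => by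
    have h : ∀ k, 0 ≤ S.val r (Φ ∘ S.stp r k) x ∧ S.val r (Φ ∘ S.stp r k) x ≤ S.D := fun k =>
      val_bounds r (S.maps_comp hΦ r k) hx
    have ht := tendsto_ulim (g := fun k => S.val r (Φ ∘ S.stp r k) x) (R := S.D) fun k =>
      abs_le.mpr ⟨by linarith [(h k).1, S.D_nonneg], (h k).2⟩
    exact ⟨ge_of_tendsto' ht fun k => (h k).1, le_of_tendsto' ht fun k => (h k).2⟩

lemma tendsto_val (r : ℕ) {Φ : X → X} {x : X} (hΦ : MapsTo Φ S.K S.K) (hx : x ∈ S.K) :
    Tendsto (fun k => S.val r (Φ ∘ S.stp r k) x) (uf : Filter ℕ) (𝓝 (S.val (r + 1) Φ x)) :=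
  tendsto_ulim (R := S.D) fun k => by
    have h := S.val_bounds r (S.maps_comp hΦ r k) hx
    exact abs_le.mpr ⟨by linarith [S.D_nonneg], h.2⟩

/-- A property of all the leaves passes to the value. -/
lemma val_le_val : ∀ (r : ℕ) {Φ : X → X} {x y : X} {c e : ℝ}, MapsTo Φ S.K S.K → x ∈ S.K →
    y ∈ S.K → (∀ v ∈ S.K, ‖Φ v - x‖ ≤ c * ‖Φ v - y‖ + e) → S.val r Φ x ≤ c * S.val r Φ y + e
  | 0, _, _, _, _, _, _, _, _, h => h _ S.x0_mem
  | r + 1, Φ, x, y, c, e, hΦ, hx, hy, h =>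
    le_of_tendsto_of_tendsto' (S.tendsto_val r hΦ hx) (((S.tendsto_val r hΦ hy).const_mul c).add_const e)
      fun k => val_le_val r (S.maps_comp hΦ r k) hx hy fun v _ => h _ (S.res_mem _ _)

lemma val_convex : ∀ (r : ℕ) {Φ : X → X} {x y : X} {c e : ℝ}, MapsTo Φ S.K S.K → x ∈ S.K →
    y ∈ S.K → 0 ≤ c → 0 ≤ e → c + e = 1 →
    S.val r Φ (c • x + e • y) ≤ c * S.val r Φ x + e * S.val r Φ y
  | 0, Φ, x, y, c, e, _, _, _, hc, he, hce => by
    simp only [val]
    calc ‖Φ S.x0 - (c • x + e • y)‖ = ‖c • (Φ S.x0 - x) + e • (Φ S.x0 - y)‖ := by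
          congr 1
          conv_lhs => rw [← one_smul ℝ (Φ S.x0), ← hce, add_smul]
          rw [smul_sub, smul_sub]; abel
      _ ≤ _ := (norm_add_le _ _).trans (by rw [norm_smul_of_nonneg hc, norm_smul_of_nonneg he])
  | r + 1, Φ, x, y, c, e, hΦ, hx, hy, hc, he, hce =>
    le_of_tendsto_of_tendsto' (S.tendsto_val r hΦ (S.conv hx hy hc he hce))
      (((S.tendsto_val r hΦ hx).const_mul c).add ((S.tendsto_val r hΦ hy).const_mul e))
      fun k => val_convex r (S.maps_comp hΦ r k) hx hy hc he hce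

lemma norm_mean_sub_le_val : ∀ (r : ℕ) {Φ : X → X} {x : X}, MapsTo Φ S.K S.K → x ∈ S.K →
    ‖S.mean r Φ - x‖ ≤ S.val r Φ x
  | 0, _, _, _, _ => le_rfl
  | r + 1, _, x, hΦ, hx =>
    S.norm_wl_sub_le (fun k => S.mean_mem r (S.maps_comp hΦ r k)) x (S.tendsto_val r hΦ hx)
      fun k => norm_mean_sub_le_val r (S.maps_comp hΦ r k) hx

end Setting

end

end Vale.Agent.P079.Asym
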